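import Mathlib.SetTheory.Cardinal.Arithmetic
import Mathlib.SetTheory.Ordinal.Basic
import Mathlib.Algebra.Group.Subgroup.Defs
import Mathlib.Algebra.Group.End

/-!
The tree argument over a group of permutations: types which are isolated by a closed trace.
-/

universe u

open Set Cardinal Function

namespace Vale.Agent.P307.R2.H952

variable {C : Type u}

/-- Limits of increasing chains of closed sets and of coherent maps on them. -/
def LimHyp (G : Subgroup (Equiv.Perm C)) (X : Set C) (Zc : Set (Set C)) (ρ : Cardinal.{u}) :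
    Prop :=
  ∀ (I : Type u) [LinearOrder I] [WellFoundedLT I] [Nonempty I] [NoMaxOrder I], #I ≤ ρ →
    ∀ (Z : I → Set C) (h : I → Equiv.Perm C), Monotone Z → (∀ i, Z i ∈ Zc) → (∀ i, h i ∈ G) →
      (∀ i j, i ≤ j → ∀ x ∈ X, x ∈ Z i → h j x = h i x) →
        (⋃ i, Z i) ∈ Zc ∧ ∃ g ∈ G, ∀ i, ∀ x ∈ X, x ∈ Z i → g x = h i x

/-- The same for arbitrary well-ordered index sets. -/
theorem LimHyp.ext {G : Subgroup (Equiv.Perm C)} {X : Set C} {Zc : Set (Set C)} {ρ : Cardinal.{u}}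
    (hL : LimHyp G X Zc ρ) {I : Type u} [LinearOrder I] [WellFoundedLT I] (hI : #I ≤ ρ)
    {Z₀ : Set C} (hZ₀ : Z₀ ∈ Zc) {Z : I → Set C} {h : I → Equiv.Perm C} (hZm : Monotone Z)
    (hZc : ∀ i, Z i ∈ Zc) (hG : ∀ i, h i ∈ G)
    (hco : ∀ i j, i ≤ j → ∀ x ∈ X, x ∈ Z i → h j x = h i x) (h0 : ∀ i, Z₀ ⊆ Z i)
    (hfix : ∀ i, ∀ x ∈ X, x ∈ Z₀ → h i x = x) :
    (Z₀ ∪ ⋃ i, Z i) ∈ Zc ∧ ∃ g ∈ G, (∀ x ∈ X, x ∈ Z₀ → g x = x) ∧
      ∀ i, ∀ x ∈ X, x ∈ Z i → g x = h i x := by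
  rcases isEmpty_or_nonempty I with hE | hE
  · refine ⟨?_, 1, G.one_mem, fun x _ _ => rfl, fun i => hE.elim i⟩
    rw [iUnion_of_empty, union_empty]
    exact hZ₀
  by_cases hmax : ∃ m : I, ∀ i, i ≤ m
  · obtain ⟨m, hm⟩ := hmax
    refine ⟨?_, h m, hG m, hfix m, fun i x hx hxi => hco i m (hm i) x hx hxi⟩
    have : (Z₀ ∪ ⋃ i, Z i) = Z m := by
      refine Subset.antisymm (union_subset (h0 m) (iUnion_subset fun i => hZm (hm i))) ?_
      exact (subset_iUnion Z m).trans subset_union_right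
    rw [this]
    exact hZc m
  · push Not at hmax
    have : NoMaxOrder I := ⟨fun m => by
      obtain ⟨i, hi⟩ := hmax m
      exact ⟨i, hi⟩⟩
    obtain ⟨h1, g, hg, h2⟩ := hL I hI Z h hZm hZc hG hco
    obtain ⟨i⟩ := hE
    have : (Z₀ ∪ ⋃ i, Z i) = ⋃ i, Z i :=
      union_eq_self_of_subset_left ((h0 i).trans (subset_iUnion Z i))
    rw [this]
    refine ⟨h1, g, hg, fun x hx hx0 => ?_, h2⟩
    rw [h2 i x hx (h0 i hx0), hfix i x hx hx0]

section

variable {J : Type u} [LinearOrder J] [WellFoundedLT J]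

open Classical in
/-- One step of the recursion along a branch. -/
noncomputable def stF (G : Subgroup (Equiv.Perm C)) (X Z₀ : Set C)
    (t : Set C → Equiv.Perm C → Equiv.Perm C) (Zp : Set C → Equiv.Perm C → Set C) (i : J)
    (η : ∀ j, j < i → Bool) (r : ∀ j, j < i → Set C × Equiv.Perm C) : Set C × Equiv.Perm C :=
  (Z₀ ∪ ⋃ j : Iio i, Zp (r j.1 j.2).1 (r j.1 j.2).2,
    if h : ∃ g ∈ G, (∀ x ∈ X, x ∈ Z₀ → g x = x) ∧ ∀ j : Iio i, ∀ x ∈ X,
      x ∈ Zp (r j.1 j.2).1 (r j.1 j.2).2 → g x = (if η j.1 j.2 then (r j.1 j.2).2 *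
        (t (r j.1 j.2).1 (r j.1 j.2).2)⁻¹ else (r j.1 j.2).2) x then h.choose else 1)

/-- The states along a branch. -/
noncomputable def st (G : Subgroup (Equiv.Perm C)) (X Z₀ : Set C)
    (t : Set C → Equiv.Perm C → Equiv.Perm C) (Zp : Set C → Equiv.Perm C → Set C)
    (η : J → Bool) : J → Set C × Equiv.Perm C :=
  (wellFounded_lt (α := J)).fix fun i r => stF G X Z₀ t Zp i (fun j _ => η j) r

variable (G : Subgroup (Equiv.Perm C)) (X Z₀ : Set C)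
    (t : Set C → Equiv.Perm C → Equiv.Perm C) (Zp : Set C → Equiv.Perm C → Set C)

theorem st_eq (η : J → Bool) (i : J) : st G X Z₀ t Zp η i =
    stF G X Z₀ t Zp i (fun j _ => η j) (fun j _ => st G X Z₀ t Zp η j) :=
  WellFounded.fix_eq _ _ _

theorem st_congr {η η' : J → Bool} (i : J) (h : ∀ j < i, η j = η' j) :
    st G X Z₀ t Zp η i = st G X Z₀ t Zp η' i := by
  induction i using WellFoundedLT.induction with
  | ind i ih =>
    rw [st_eq, st_eq]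
    have h1 : (fun (j : J) (_ : j < i) => st G X Z₀ t Zp η j) =
        fun j _ => st G X Z₀ t Zp η' j := by
      funext j hj
      exact ih j hj fun k hk => h k (hk.trans hj)
    have h2 : (fun (j : J) (_ : j < i) => η j) = fun j _ => η' j := by
      funext j hj
      exact h j hj
    rw [h1, h2]

/-- The map after the splitting. -/
noncomputable def hst (η : J → Bool) (i : J) : Equiv.Perm C :=
  if η i then (st G X Z₀ t Zp η i).2 * (t (st G X Z₀ t Zp η i).1 (st G X Z₀ t Zp η i).2)⁻¹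
    else (st G X Z₀ t Zp η i).2

/-- The closed set after the splitting. -/
def zst (η : J → Bool) (i : J) : Set C := Zp (st G X Z₀ t Zp η i).1 (st G X Z₀ t Zp η i).2

variable {G X Z₀ t Zp} {Zc : Set (Set C)} {ρ : Cardinal.{u}}

theorem st_fst (η : J → Bool) (i : J) :
    (st G X Z₀ t Zp η i).1 = Z₀ ∪ ⋃ j : Iio i, zst G X Z₀ t Zp η j := by
  rw [st_eq]
  rfl

theorem st_snd (η : J → Bool) (i : J) (h : ∃ g ∈ G, (∀ x ∈ X, x ∈ Z₀ → g x = x) ∧
    ∀ j : Iio i, ∀ x ∈ X, x ∈ zst G X Z₀ t Zp η j → g x = hst G X Z₀ t Zp η j x) :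
    (st G X Z₀ t Zp η i).2 ∈ G ∧ (∀ x ∈ X, x ∈ Z₀ → (st G X Z₀ t Zp η i).2 x = x) ∧
      ∀ j : Iio i, ∀ x ∈ X, x ∈ zst G X Z₀ t Zp η j →
        (st G X Z₀ t Zp η i).2 x = hst G X Z₀ t Zp η j x := by
  have h1 : (st G X Z₀ t Zp η i).2 = h.choose := by
    rw [st_eq]
    exact dif_pos h
  rw [h1]
  exact h.choose_spec

/-- The properties of the states. -/
structure Inv (G : Subgroup (Equiv.Perm C)) (X Z₀ : Set C)
    (t : Set C → Equiv.Perm C → Equiv.Perm C) (Zp : Set C → Equiv.Perm C → Set C)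
    (Zc : Set (Set C)) (η : J → Bool) (i : J) : Prop where
  mem : (st G X Z₀ t Zp η i).1 ∈ Zc
  memG : (st G X Z₀ t Zp η i).2 ∈ G
  fix : ∀ x ∈ X, x ∈ Z₀ → (st G X Z₀ t Zp η i).2 x = x
  zmem : zst G X Z₀ t Zp η i ∈ Zc
  zsub : (st G X Z₀ t Zp η i).1 ⊆ zst G X Z₀ t Zp η i
  hG : hst G X Z₀ t Zp η i ∈ G
  heq : ∀ x ∈ X, x ∈ (st G X Z₀ t Zp η i).1 →
    hst G X Z₀ t Zp η i x = (st G X Z₀ t Zp η i).2 x
  prev : ∀ j < i, ∀ x ∈ X, x ∈ zst G X Z₀ t Zp η j →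
    (st G X Z₀ t Zp η i).2 x = hst G X Z₀ t Zp η j x

theorem zst_sub_fst (η : J → Bool) {j i : J} (hji : j < i) :
    zst G X Z₀ t Zp η j ⊆ (st G X Z₀ t Zp η i).1 := by
  rw [st_fst]
  exact (subset_iUnion (fun k : Iio i => zst G X Z₀ t Zp η k) ⟨j, hji⟩).trans subset_union_right

theorem sub_fst (η : J → Bool) (i : J) : Z₀ ⊆ (st G X Z₀ t Zp η i).1 := by
  rw [st_fst]
  exact subset_union_left

theorem inv (hL : LimHyp G X Zc ρ) (hJ : #J ≤ ρ) (hZ₀ : Z₀ ∈ Zc)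
    (ht : ∀ Z ∈ Zc, ∀ g ∈ G, (∀ x ∈ X, x ∈ Z₀ → g x = x) → t Z g ∈ G ∧
      ∀ x ∈ X, x ∈ Z → t Z g x = x)
    (hZp : ∀ Z ∈ Zc, ∀ g ∈ G, (∀ x ∈ X, x ∈ Z₀ → g x = x) → Zp Z g ∈ Zc ∧ Z ⊆ Zp Z g)
    (η : J → Bool) (i : J) : Inv G X Z₀ t Zp Zc η i := by
  induction i using WellFoundedLT.induction with
  | ind i ih =>
    have hmono : ∀ j k : Iio i, j ≤ k → zst G X Z₀ t Zp η j ⊆ zst G X Z₀ t Zp η k := by
      intro j k hjk
      rcases hjk.eq_or_lt with rfl | hjk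
      · exact Subset.rfl
      · exact (zst_sub_fst η (show (j : J) < k from hjk)).trans (ih k k.2).zsub
    have hco : ∀ j k : Iio i, j ≤ k → ∀ x ∈ X, x ∈ zst G X Z₀ t Zp η j →
        hst G X Z₀ t Zp η k x = hst G X Z₀ t Zp η j x := by
      intro j k hjk x hx hxj
      rcases hjk.eq_or_lt with rfl | hjk
      · rfl
      · rw [(ih k k.2).heq x hx (zst_sub_fst η (show (j : J) < k from hjk) hxj),
          (ih k k.2).prev j hjk x hx hxj]
    have h0 : ∀ j : Iio i, Z₀ ⊆ zst G X Z₀ t Zp η j := fun j =>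
      (sub_fst η j.1).trans (ih j j.2).zsub
    have hfix : ∀ j : Iio i, ∀ x ∈ X, x ∈ Z₀ → hst G X Z₀ t Zp η j x = x := by
      intro j x hx hx0
      rw [(ih j j.2).heq x hx (sub_fst η j.1 hx0), (ih j j.2).fix x hx hx0]
    obtain ⟨h1, h2⟩ := hL.ext (I := Iio i) ((mk_subtype_le _).trans hJ) hZ₀
      (Z := fun j => zst G X Z₀ t Zp η j) (h := fun j => hst G X Z₀ t Zp η j) hmono
      (fun j => (ih j j.2).zmem) (fun j => (ih j j.2).hG) hco h0 hfix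
    obtain ⟨h3, h4, h5⟩ := st_snd (t := t) (Zp := Zp) η i h2
    have h6 : (st G X Z₀ t Zp η i).1 ∈ Zc := by
      rw [st_fst]
      exact h1
    obtain ⟨h7, h8⟩ := ht _ h6 _ h3 h4
    obtain ⟨h9, h10⟩ := hZp _ h6 _ h3 h4
    refine ⟨h6, h3, h4, h9, h10, ?_, ?_, fun j hj => h5 ⟨j, hj⟩⟩
    · unfold hst
      split_ifs
      · exact G.mul_mem h3 (G.inv_mem h7)
      · exact h3
    · intro x hx hxi
      unfold hst
      split_ifs
      · rw [Equiv.Perm.mul_apply]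
        congr 1
        rw [Equiv.Perm.inv_eq_iff_eq]
        exact (h8 x hx hxi).symm
      · rfl

end

/-- The tree argument. -/
theorem exists_isol (G : Subgroup (Equiv.Perm C)) {X s₀ : Set C} {Zc : Set (Set C)}
    {ν H ρ : Cardinal.{u}} (hν : ℵ₀ ≤ ν) (hHν : H ≤ ν) (hρν : ρ ≤ ν)
    (hρ : ∀ a < ρ, (2 : Cardinal.{u}) ^ a ≤ ν) (hρ' : ν < 2 ^ ρ)
    (hs₀ : ∃ Z ∈ Zc, s₀ ⊆ Z) (hs₀X : s₀ ⊆ X)
    (hcof : ∀ Z ∈ Zc, ∀ W ⊆ X, #W ≤ H → ∃ Z' ∈ Zc, Z ⊆ Z' ∧ W ⊆ Z')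
    (hL : LimHyp G X Zc ρ) {ι : Type u} (e : ι → C)
    (hfew : ∀ W ⊆ X, #W ≤ ν → ∀ (I : Type u) (f : I → ι → C),
      (∀ i j, i ≠ j → ¬ ∃ k ∈ G, (∀ x ∈ W, k x = x) ∧ ∀ z, k (f i z) = f j z) → #I ≤ ν) :
    ∃ g ∈ G, (∀ x ∈ s₀, g x = x) ∧ ∃ Z ∈ Zc, ∀ t ∈ G, (∀ x ∈ X, x ∈ Z → t x = x) →
      ∀ c ⊆ X, #c ≤ H → ∃ k ∈ G, (∀ x ∈ c, k x = x) ∧ ∀ z, k (g (e z)) = t (g (e z)) := by
  classical
  by_contra hcon
  push Not at hcon
  obtain ⟨Z₀, hZ₀, hsZ₀⟩ := hs₀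
  -- the choices
  have hNI : ∀ p : Set C × Equiv.Perm C, ∃ q : Equiv.Perm C × Set C × Set C,
      (p.1 ∈ Zc → p.2 ∈ G → (∀ x ∈ X, x ∈ Z₀ → p.2 x = x) →
        (q.1 ∈ G ∧ ∀ x ∈ X, x ∈ p.1 → q.1 x = x) ∧ (q.2.1 ∈ Zc ∧ p.1 ⊆ q.2.1) ∧
          q.2.2 ⊆ q.2.1) ∧
        (p.1 ∈ Zc → p.2 ∈ G → (∀ x ∈ X, x ∈ Z₀ → p.2 x = x) →
          ∀ k ∈ G, (∀ x ∈ q.2.2, k x = x) → ∃ z, k (p.2⁻¹ (e z)) ≠ q.1 (p.2⁻¹ (e z))) ∧
        q.2.2 ⊆ X ∧ #q.2.2 ≤ H := by
    rintro ⟨Z, g⟩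
    by_cases h : Z ∈ Zc ∧ g ∈ G ∧ ∀ x ∈ X, x ∈ Z₀ → g x = x
    · obtain ⟨h1, h2, h3⟩ := h
      obtain ⟨t, ht, ht1, c, hc, hc1, hc2⟩ := hcon g⁻¹ (G.inv_mem h2) (fun x hx => by
        rw [Equiv.Perm.inv_eq_iff_eq]
        exact (h3 x (hs₀X hx) (hsZ₀ hx)).symm) Z h1
      obtain ⟨Z', hZ', hZZ', hcZ'⟩ := hcof Z h1 c hc hc1
      exact ⟨⟨t, Z', c⟩, fun _ _ _ => ⟨⟨ht, ht1⟩, ⟨hZ', hZZ'⟩, hcZ'⟩, fun _ _ _ => hc2, hc, hc1⟩
    · refine ⟨⟨1, ∅, ∅⟩, fun h1 h2 h3 => absurd ⟨h1, h2, h3⟩ h, fun h1 h2 h3 =>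
        absurd ⟨h1, h2, h3⟩ h, empty_subset _, ?_⟩
      simp
  choose q hq1 hq2 hqX hqH using hNI
  let t : Set C → Equiv.Perm C → Equiv.Perm C := fun Z g => (q (Z, g)).1
  let Zp : Set C → Equiv.Perm C → Set C := fun Z g => (q (Z, g)).2.1
  let J : Type u := ρ.ord.ToType
  have hJ : #J = ρ := mk_ord_toType ρ
  have hinv : ∀ (η : J → Bool) (i : J), Inv G X Z₀ t Zp Zc η i := fun η i =>
    inv hL hJ.le hZ₀ (fun Z hZ g hg hgf => (hq1 (Z, g) hZ hg hgf).1)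
      (fun Z hZ g hg hgf => (hq1 (Z, g) hZ hg hgf).2.1) η i
  -- the branches
  have hbr : ∀ η : J → Bool, ∃ g ∈ G, (∀ x ∈ X, x ∈ Z₀ → g x = x) ∧
      ∀ j, ∀ x ∈ X, x ∈ zst G X Z₀ t Zp η j → g x = hst G X Z₀ t Zp η j x := by
    intro η
    refine (hL.ext (I := J) hJ.le hZ₀ (Z := fun j => zst G X Z₀ t Zp η j)
      (h := fun j => hst G X Z₀ t Zp η j) ?_ (fun j => (hinv η j).zmem)
      (fun j => (hinv η j).hG) ?_ (fun j => (sub_fst η j).trans (hinv η j).zsub) ?_).2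
    · intro j k hjk
      rcases hjk.eq_or_lt with rfl | hjk
      · exact Subset.rfl
      · exact (zst_sub_fst η hjk).trans (hinv η k).zsub
    · intro j k hjk x hx hxj
      rcases hjk.eq_or_lt with rfl | hjk
      · rfl
      · rw [(hinv η k).heq x hx (zst_sub_fst η hjk hxj), (hinv η k).prev j hjk x hx hxj]
    · intro j x hx hx0
      rw [(hinv η j).heq x hx (sub_fst η j hx0), (hinv η j).fix x hx hx0]
  choose g hgG hgf hgj using hbr
  -- the witnesses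
  let cw : (J → Bool) → J → Set C := fun η j => (q (st G X Z₀ t Zp η j)).2.2
  let nd : (Σ j : J, (Iio j → Bool)) → J → Bool := fun p k =>
    if h : k < p.1 then p.2 ⟨k, h⟩ else false
  let W : Set C := ⋃ p : (Σ j : J, (Iio j → Bool)), cw (nd p) p.1
  have hcW : ∀ η j, cw η j ⊆ W := by
    intro η j
    have h1 : cw η j = cw (nd ⟨j, fun k => η k⟩) j := by
      change (q (st G X Z₀ t Zp η j)).2.2 = (q (st G X Z₀ t Zp _ j)).2.2
      rw [st_congr G X Z₀ t Zp (η := η) (η' := nd ⟨j, fun k => η k⟩) j]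
      intro k hk
      change η k = if h : k < j then η k else false
      rw [dif_pos hk]
    rw [h1]
    exact subset_iUnion (fun p : (Σ j : J, (Iio j → Bool)) => cw (nd p) p.1) ⟨j, fun k => η k⟩
  have hWX : W ⊆ X := iUnion_subset fun p => hqX _
  have hB2 : ∀ A : Type u, #(A → Bool) = 2 ^ #A := fun A => by simp
  have hW : #W ≤ ν := by
    refine (mk_iUnion_le_sum_mk).trans ?_
    refine (sum_le_sum _ (fun _ => ν) fun p => (hqH _).trans hHν).trans ?_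
    rw [sum_const', mk_sigma]
    refine mul_le_of_le hν ?_ le_rfl
    refine (sum_le_sum _ (fun _ : J => ν) fun j => ?_).trans ?_
    · rw [hB2]
      exact hρ _ (mk_Iio_toType_ord_lt j)
    · rw [sum_const', hJ]
      exact mul_le_of_le hν hρν le_rfl
  -- the contradiction
  have hfin := hfew W hWX hW (J → Bool) (fun η z => (g η)⁻¹ (e z)) ?_
  · rw [hB2, hJ] at hfin
    exact absurd hfin (not_le.2 hρ')
  · have key : ∀ η η' : J → Bool, ∀ j, (∀ k < j, η k = η' k) → η j = false → η' j = true →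
        ¬ ∃ k ∈ G, (∀ x ∈ W, k x = x) ∧ ∀ z, k ((g η)⁻¹ (e z)) = (g η')⁻¹ (e z) := by
      rintro η η' j hj h1 h2 ⟨k, hk, hkW, hkz⟩
      have hst' : st G X Z₀ t Zp η j = st G X Z₀ t Zp η' j := st_congr G X Z₀ t Zp j hj
      have hI := hinv η j
      set p := st G X Z₀ t Zp η j with hp
      have hpc : cw η j ⊆ zst G X Z₀ t Zp η j := (hq1 p hI.mem hI.memG hI.fix).2.2
      have hcX : cw η j ⊆ X := hqX _
      have hA : ∀ x ∈ cw η j, g η x = p.2 x := by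
        intro x hx
        rw [hgj η j x (hcX hx) (hpc hx)]
        unfold hst
        rw [if_neg (by rw [h1]; exact Bool.false_ne_true)]
      have hB : ∀ x ∈ cw η j, g η' x = p.2 ((t p.1 p.2)⁻¹ x) := by
        intro x hx
        have h3 : x ∈ zst G X Z₀ t Zp η' j := by
          unfold zst
          rw [← hst']
          exact hpc hx
        rw [hgj η' j x (hcX hx) h3]
        unfold hst
        rw [if_pos h2, ← hst']
        rfl
      have hk' : t p.1 p.2 * p.2⁻¹ * g η' * k * (g η)⁻¹ * p.2 ∈ G :=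
        G.mul_mem (G.mul_mem (G.mul_mem (G.mul_mem (G.mul_mem
          (hq1 p hI.mem hI.memG hI.fix).1.1 (G.inv_mem hI.memG)) (hgG η')) hk)
          (G.inv_mem (hgG η))) hI.memG
      obtain ⟨z, hz⟩ := hq2 p hI.mem hI.memG hI.fix _ hk' (by
        intro x hx
        have h4 : (g η)⁻¹ (p.2 x) = x := by
          rw [Equiv.Perm.inv_eq_iff_eq]
          exact (hA x hx).symm
        simp only [Equiv.Perm.mul_apply]
        rw [h4, hkW x (hcW η j hx), hB x hx]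
        have h5 : p.2⁻¹ (p.2 ((t p.1 p.2)⁻¹ x)) = (t p.1 p.2)⁻¹ x :=
          Equiv.symm_apply_apply p.2 _
        rw [h5]
        exact Equiv.apply_symm_apply (t p.1 p.2) x)
      apply hz
      simp only [Equiv.Perm.mul_apply]
      have h6 : p.2 (p.2⁻¹ (e z)) = e z := Equiv.apply_symm_apply p.2 _
      rw [h6, hkz z]
      have h7 : g η' ((g η')⁻¹ (e z)) = e z := Equiv.apply_symm_apply (g η') _
      rw [h7]
    intro η η' hne hex
    have hne' : ∃ j, η j ≠ η' j := by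
      by_contra h
      push Not at h
      exact hne (funext h)
    let j := (wellFounded_lt (α := J)).min {j | η j ≠ η' j} hne'
    have hj : η j ≠ η' j := (wellFounded_lt (α := J)).min_mem {j | η j ≠ η' j} hne'
    have hj' : ∀ k < j, η k = η' k := by
      intro k hk
      by_contra h
      exact (wellFounded_lt (α := J)).not_lt_min {j | η j ≠ η' j} h hk
    cases h1 : η j with
    | false =>
      have h2 : η' j = true := by
        cases h2 : η' j with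
        | true => rfl
        | false => exact absurd (h1.trans h2.symm) hj
      exact key η η' j hj' h1 h2 hex
    | true =>
      have h2 : η' j = false := by
        cases h2 : η' j with
        | false => rfl
        | true => exact absurd (h1.trans h2.symm) hj
      refine key η' η j (fun k hk => (hj' k hk).symm) h2 h1 ?_
      obtain ⟨k, hk, h3, h4⟩ := hex
      refine ⟨k⁻¹, G.inv_mem hk, fun x hx => ?_, fun z => ?_⟩
      · rw [Equiv.Perm.inv_eq_iff_eq]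
        exact (h3 x hx).symm
      · rw [← h4 z]
        exact Equiv.symm_apply_apply k _

end Vale.Agent.P307.R2.H952
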